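import Mathlib

/-!
# Balanced flows in a finite bipartite graph (P038, H181)
-/

namespace Vale.Agent.P038.H181

open Finset

variable {V : Type*} [Fintype V]

/-- A balanced flow for the supply set `S`, the edges `N` and the weights `w`. -/
structure Bal (w : V → ℝ) (S : V → Prop) (N : V → V → Prop) (h : V → V → ℝ) : Prop where
  nonneg : ∀ x y, 0 ≤ h x y
  supp : ∀ x y, h x y ≠ 0 → S x ∧ N x y
  sum : ∀ x, S x → ∑ y, h x y = w x
  bal : ∀ x y y', 0 < h x y → N x y' → (∑ z, h z y) / w y ≤ (∑ z, h z y') / w y'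

theorem sum_perturb [DecidableEq V] (g : V → ℝ) (w : V → ℝ) (ε : ℝ) (y y' : V) (hne : y ≠ y') :
    ∑ b, (g b + ((if b = y' then ε else 0) - (if b = y then ε else 0))) ^ 2 / w b =
      ∑ b, (g b) ^ 2 / w b + (2 * ε * g y' / w y' - 2 * ε * g y / w y) +
        (ε ^ 2 / w y' + ε ^ 2 / w y) := by
  have e : ∀ b, (g b + ((if b = y' then ε else 0) - (if b = y then ε else 0))) ^ 2 / w b =
      (g b) ^ 2 / w b + ((if b = y' then 2 * ε * g y' / w y' else 0) -
        (if b = y then 2 * ε * g y / w y else 0)) +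
        ((if b = y' then ε ^ 2 / w y' else 0) + (if b = y then ε ^ 2 / w y else 0)) := by
    intro b
    by_cases h1 : b = y'
    · have h2 : b ≠ y := fun h => hne (h ▸ h1)
      rw [if_pos h1, if_neg h2, if_pos h1, if_neg h2, if_pos h1, if_neg h2, h1]
      ring
    · by_cases h2 : b = y
      · rw [if_neg h1, if_pos h2, if_neg h1, if_pos h2, if_neg h1, if_pos h2, h2]
        ring
      · rw [if_neg h1, if_neg h2, if_neg h1, if_neg h2, if_neg h1, if_neg h2]
        ring
  rw [Finset.sum_congr rfl fun b _ => e b]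
  simp only [Finset.sum_add_distrib, Finset.sum_sub_distrib, Finset.sum_ite_eq', Finset.mem_univ,
    if_true]

theorem exists_balanced (w : V → ℝ) (hw : ∀ v, 0 < w v) (S : V → Prop) (N : V → V → Prop)
    (hN : ∀ x, S x → ∃ y, N x y) : ∃ h : V → V → ℝ, Bal w S N h := by
  classical
  set K : Set (V → V → ℝ) := {h | (∀ x y, 0 ≤ h x y) ∧ (∀ x y, ¬ (S x ∧ N x y) → h x y = 0) ∧
    ∀ x, S x → ∑ y, h x y = w x} with hK
  have hsub : K ⊆ Set.pi Set.univ fun x => Set.pi Set.univ fun _ => Set.Icc 0 (w x) := by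
    rintro h ⟨h1, h2, h3⟩ x - y -
    refine ⟨h1 x y, ?_⟩
    by_cases hx : S x
    · rw [← h3 x hx]
      exact Finset.single_le_sum (fun y _ => h1 x y) (Finset.mem_univ y)
    · rw [h2 x y fun h => hx h.1]
      exact (hw x).le
  have hcp : IsCompact (Set.pi Set.univ fun x : V => Set.pi Set.univ fun _ : V =>
      Set.Icc 0 (w x)) :=
    isCompact_univ_pi fun x => isCompact_univ_pi fun _ => isCompact_Icc
  have hcl : IsClosed K := by
    have e : K = (⋂ x, ⋂ y, {h : V → V → ℝ | 0 ≤ h x y}) ∩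
        ((⋂ x, ⋂ y, ⋂ (_ : ¬ (S x ∧ N x y)), {h : V → V → ℝ | h x y = 0}) ∩
        ⋂ x, ⋂ (_ : S x), {h : V → V → ℝ | ∑ y, h x y = w x}) := by
      ext h
      simp only [hK, Set.mem_inter_iff, Set.mem_iInter]
      exact Iff.rfl
    rw [e]
    refine IsClosed.inter ?_ (IsClosed.inter ?_ ?_)
    · refine isClosed_iInter fun x => isClosed_iInter fun y => ?_
      exact isClosed_le continuous_const (by fun_prop)
    · refine isClosed_iInter fun x => isClosed_iInter fun y => isClosed_iInter fun _ => ?_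
      exact isClosed_eq (by fun_prop) continuous_const
    · refine isClosed_iInter fun x => isClosed_iInter fun _ => ?_
      exact isClosed_eq (by fun_prop) continuous_const
  have hKc : IsCompact K := hcp.of_isClosed_subset hcl hsub
  have hne : K.Nonempty := by
    choose! φ hφ using hN
    refine ⟨fun x y => if S x ∧ y = φ x then w x else 0, ?_, ?_, ?_⟩
    · intro x y
      show (0 : ℝ) ≤ if S x ∧ y = φ x then w x else 0
      split_ifs
      · exact (hw x).le
      · exact le_refl _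
    · intro x y hxy
      show (if S x ∧ y = φ x then w x else 0) = 0
      rw [if_neg]
      rintro ⟨h1, h2⟩
      exact hxy ⟨h1, h2 ▸ hφ x h1⟩
    · intro x hx
      show ∑ y, (if S x ∧ y = φ x then w x else 0) = w x
      simp only [hx, true_and, Finset.sum_ite_eq', Finset.mem_univ, if_true]
  obtain ⟨h, hhK, hmin⟩ := hKc.exists_isMinOn hne
    (f := fun h : V → V → ℝ => ∑ y, (∑ z, h z y) ^ 2 / w y) (by fun_prop)
  obtain ⟨h1, h2, h3⟩ := hhK
  refine ⟨h, h1, ?_, h3, ?_⟩
  · intro x y hxy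
    by_contra hc
    exact hxy (h2 x y hc)
  intro x y y' hpos hN'
  by_contra hcon
  push Not at hcon
  set L : V → ℝ := fun b => ∑ z, h z b with hL
  have hcon' : L y' / w y' < L y / w y := hcon
  have hyy : y ≠ y' := by
    rintro rfl
    exact lt_irrefl _ hcon'
  have hSN : S x ∧ N x y := by
    by_contra hc
    exact hpos.ne' (h2 x y hc)
  set c : ℝ := 1 / w y' + 1 / w y with hc
  have hcpos : 0 < c := add_pos (one_div_pos.2 (hw _)) (one_div_pos.2 (hw _))
  set δ : ℝ := L y / w y - L y' / w y' with hδ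
  have hδpos : 0 < δ := sub_pos.2 hcon'
  set ε : ℝ := min (h x y) (δ / c) with hε
  have hεpos : 0 < ε := lt_min hpos (div_pos hδpos hcpos)
  have hεle : ε ≤ h x y := min_le_left _ _
  have hεc : ε * c ≤ δ := by
    have h4 : ε ≤ δ / c := min_le_right _ _
    rwa [le_div_iff₀ hcpos] at h4
  set h' : V → V → ℝ := fun a b => h a b + (if a = x then
    ((if b = y' then ε else 0) - (if b = y then ε else 0)) else 0) with hh'
  have hmem : h' ∈ K := by
    refine ⟨?_, ?_, ?_⟩
    · intro a b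
      show 0 ≤ h a b + (if a = x then
        ((if b = y' then ε else 0) - (if b = y then ε else 0)) else 0)
      by_cases ha : a = x
      · rw [if_pos ha]
        by_cases hb : b = y
        · have hb' : b ≠ y' := fun h => hyy (hb ▸ h)
          rw [if_neg hb', if_pos hb, ha, hb]
          linarith
        · rw [if_neg hb]
          have := h1 a b
          split_ifs <;> linarith
      · rw [if_neg ha]
        have := h1 a b
        linarith
    · intro a b hab
      show h a b + (if a = x then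
        ((if b = y' then ε else 0) - (if b = y then ε else 0)) else 0) = 0
      rw [h2 a b hab]
      by_cases ha : a = x
      · have hb : b ≠ y := by
          rintro rfl
          exact hab (ha ▸ hSN)
        have hb' : b ≠ y' := by
          rintro rfl
          exact hab ⟨ha ▸ hSN.1, ha ▸ hN'⟩
        rw [if_pos ha, if_neg hb, if_neg hb']
        ring
      · rw [if_neg ha]
        ring
    · intro a ha
      show ∑ b, (h a b + (if a = x then
        ((if b = y' then ε else 0) - (if b = y then ε else 0)) else 0)) = w a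
      rw [Finset.sum_add_distrib, h3 a ha]
      by_cases hax : a = x
      · simp only [hax, if_true, Finset.sum_sub_distrib, Finset.sum_ite_eq', Finset.mem_univ]
        ring
      · simp only [hax, if_false, Finset.sum_const_zero, add_zero]
  have hval := hmin hmem
  have e1 : ∀ b, ∑ z, h' z b =
      L b + ((if b = y' then ε else 0) - (if b = y then ε else 0)) := by
    intro b
    show ∑ z, (h z b + (if z = x then
        ((if b = y' then ε else 0) - (if b = y then ε else 0)) else 0)) = _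
    rw [Finset.sum_add_distrib, Finset.sum_ite_eq']
    simp only [Finset.mem_univ, if_true, hL]
  have hval' : ∑ b, (L b) ^ 2 / w b ≤ ∑ b, (∑ z, h' z b) ^ 2 / w b := hval
  have e4 : ∑ b, (∑ z, h' z b) ^ 2 / w b = ∑ b, (L b +
      ((if b = y' then ε else 0) - (if b = y then ε else 0))) ^ 2 / w b :=
    Finset.sum_congr rfl fun b _ => by rw [e1 b]
  rw [e4, sum_perturb L w ε y y' hyy] at hval'
  have e2 : (2 * ε * L y' / w y' - 2 * ε * L y / w y) + (ε ^ 2 / w y' + ε ^ 2 / w y) =
      ε * (ε * c - 2 * δ) := by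
    rw [hc, hδ]
    ring
  have e3 : ε * (ε * c - 2 * δ) < 0 := mul_neg_of_pos_of_neg hεpos (by linarith)
  linarith

/-- Hall's condition implies that the loads are at most `w`. -/
theorem Bal.load_le {w : V → ℝ} (hw : ∀ v, 0 < w v) {S : V → Prop} {N : V → V → Prop}
    {h : V → V → ℝ} (hb : Bal w S N h)
    (hall : ∀ X T : Finset V, (∀ x ∈ X, S x) → (∀ x ∈ X, ∀ y, N x y → y ∈ T) →
      ∑ x ∈ X, w x ≤ ∑ y ∈ T, w y) (y0 : V) : ∑ z, h z y0 ≤ w y0 := by
  classical
  by_contra hcon
  push Not at hcon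
  set L : V → ℝ := fun b => ∑ z, h z b with hL
  have hcon' : w y0 < L y0 := hcon
  set T : Finset V := Finset.univ.filter fun y => L y0 / w y0 ≤ L y / w y with hT
  set X : Finset V := Finset.univ.filter fun x => ∃ y ∈ T, 0 < h x y with hX
  have h1 : ∑ x ∈ X, w x ≤ ∑ y ∈ T, w y := by
    refine hall X T ?_ ?_
    · intro x hx
      obtain ⟨y, -, hxy⟩ := (Finset.mem_filter.1 hx).2
      exact (hb.supp x y hxy.ne').1
    · intro x hx y hxy
      obtain ⟨y1, hy1, hxy1⟩ := (Finset.mem_filter.1 hx).2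
      have h2 := hb.bal x y1 y hxy1 hxy
      exact Finset.mem_filter.2 ⟨Finset.mem_univ _, ((Finset.mem_filter.1 hy1).2).trans h2⟩
  have h2 : ∑ y ∈ T, L y ≤ ∑ x ∈ X, w x := by
    have e : ∑ y ∈ T, L y = ∑ z, ∑ y ∈ T, h z y := Finset.sum_comm
    rw [e, ← Finset.sum_subset (Finset.subset_univ X)]
    · refine Finset.sum_le_sum fun x hx => ?_
      obtain ⟨y, -, hxy⟩ := (Finset.mem_filter.1 hx).2
      rw [← hb.sum x (hb.supp x y hxy.ne').1]
      exact Finset.sum_le_sum_of_subset_of_nonneg (Finset.subset_univ _) fun y _ _ => hb.nonneg x y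
    · intro x _ hx
      refine Finset.sum_eq_zero fun y hy => ?_
      by_contra hne
      exact hx (Finset.mem_filter.2 ⟨Finset.mem_univ _, y, hy,
        lt_of_le_of_ne (hb.nonneg x y) (Ne.symm hne)⟩)
  have hy0 : y0 ∈ T := Finset.mem_filter.2 ⟨Finset.mem_univ _, le_refl _⟩
  have h3 : ∑ y ∈ T, w y < ∑ y ∈ T, L y := by
    refine Finset.sum_lt_sum (fun y hy => ?_) ⟨y0, hy0, hcon'⟩
    have h4 := (Finset.mem_filter.1 hy).2
    have h5 : 1 ≤ L y0 / w y0 := by
      rw [le_div_iff₀ (hw y0)]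
      linarith
    have h6 : 1 ≤ L y / w y := h5.trans h4
    rw [le_div_iff₀ (hw y)] at h6
    linarith
  linarith

/-- Monotonicity of the loads. -/
theorem Bal.mono {w : V → ℝ} (hw : ∀ v, 0 < w v) {S1 S2 : V → Prop} {N1 N2 : V → V → Prop}
    {h1 h2 : V → V → ℝ} (hb1 : Bal w S1 N1 h1) (hb2 : Bal w S2 N2 h2) (C : V → Prop)
    (c1 : ∀ x y, S2 x → N2 x y → C y → S1 x ∧ N1 x y)
    (c2 : ∀ x y, S2 x → N1 x y → N2 x y) (c3 : ∀ x y, N1 x y → C y) (y0 : V) (hy0 : C y0) :
    ∑ z, h2 z y0 ≤ ∑ z, h1 z y0 := by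
  classical
  by_contra hcon
  push Not at hcon
  set L1 : V → ℝ := fun b => ∑ z, h1 z b with hL1
  set L2 : V → ℝ := fun b => ∑ z, h2 z b with hL2
  have hcon' : L1 y0 < L2 y0 := hcon
  set τ : ℝ := L2 y0 / w y0 with hτ
  set T : Finset V := Finset.univ.filter fun y => C y ∧ τ ≤ L2 y / w y ∧ L1 y / w y < τ with hT
  set X : Finset V := Finset.univ.filter fun x => ∃ y ∈ T, 0 < h2 x y with hX
  have hy0T : y0 ∈ T := Finset.mem_filter.2 ⟨Finset.mem_univ _, hy0, le_refl _, by
    rw [hτ]
    exact div_lt_div_of_pos_right hcon' (hw y0)⟩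
  have e2 : ∑ y ∈ T, L2 y ≤ ∑ x ∈ X, w x := by
    have e : ∑ y ∈ T, L2 y = ∑ z, ∑ y ∈ T, h2 z y := Finset.sum_comm
    rw [e, ← Finset.sum_subset (Finset.subset_univ X)]
    · refine Finset.sum_le_sum fun x hx => ?_
      obtain ⟨y, -, hxy⟩ := (Finset.mem_filter.1 hx).2
      rw [← hb2.sum x (hb2.supp x y hxy.ne').1]
      exact Finset.sum_le_sum_of_subset_of_nonneg (Finset.subset_univ _) fun y _ _ => hb2.nonneg x y
    · intro x _ hx
      refine Finset.sum_eq_zero fun y hy => ?_
      by_contra hne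
      exact hx (Finset.mem_filter.2 ⟨Finset.mem_univ _, y, hy,
        lt_of_le_of_ne (hb2.nonneg x y) (Ne.symm hne)⟩)
  have e1 : ∑ x ∈ X, w x ≤ ∑ y ∈ T, L1 y := by
    have e : ∑ y ∈ T, L1 y = ∑ z, ∑ y ∈ T, h1 z y := Finset.sum_comm
    rw [e]
    refine le_trans (Finset.sum_le_sum fun x hx => ?_)
      (Finset.sum_le_sum_of_subset_of_nonneg (Finset.subset_univ X)
        fun x _ _ => Finset.sum_nonneg fun y _ => hb1.nonneg x y)
    obtain ⟨y, hy, hxy⟩ := (Finset.mem_filter.1 hx).2
    obtain ⟨hS2, hN2⟩ := hb2.supp x y hxy.ne'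
    obtain ⟨-, hCy, hτy, hy1⟩ := Finset.mem_filter.1 hy
    obtain ⟨hS1, hN1⟩ := c1 x y hS2 hN2 hCy
    rw [← hb1.sum x hS1]
    refine le_of_eq (Finset.sum_subset (Finset.subset_univ T) ?_).symm
    intro y' _ hy'
    by_contra hne
    have hpos : 0 < h1 x y' := lt_of_le_of_ne (hb1.nonneg x y') (Ne.symm hne)
    have hN1' := (hb1.supp x y' hne).2
    have h3 := hb1.bal x y' y hpos hN1
    have h4 := hb2.bal x y y' hxy (c2 x y' hS2 hN1')
    exact hy' (Finset.mem_filter.2 ⟨Finset.mem_univ _, c3 x y' hN1', hτy.trans h4,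
      lt_of_le_of_lt h3 hy1⟩)
  have e3 : ∑ y ∈ T, L1 y < ∑ y ∈ T, L2 y := by
    refine Finset.sum_lt_sum_of_nonempty ⟨y0, hy0T⟩ fun y hy => ?_
    obtain ⟨-, -, hτy, hy1⟩ := Finset.mem_filter.1 hy
    have h3 := lt_of_lt_of_le hy1 hτy
    exact (div_lt_div_iff_of_pos_right (hw y)).1 h3
  linarith

end Vale.Agent.P038.H181
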