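import Vale.Agent.P038.H181.Star

/-!
# Every outer pair is dominated by an inner pair (P038, H181)
-/

namespace Vale.Agent.P038.H181

open Finset

variable {V : Type*} [Fintype V]

/-- Move the second coordinate forward. -/
def rop (A B : V → V → Prop) : V → V → Prop := fun a y => ∃ x, A x y ∧ B a x

/-- Move the first coordinate backward. -/
def lop (A B : V → V → Prop) : V → V → Prop := fun v x => ∃ a, A v a ∧ B a x

/-- The adjoint of `rop`. -/
def rst (A B : V → V → Prop) : V → V → Prop := fun a x => ∀ y, A x y → B a y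

/-- The adjoint of `lop`. -/
def lst (A B : V → V → Prop) : V → V → Prop := fun a x => ∀ v, A v a → B v x

/-- The inner cost of a pair. -/
noncomputable def EE (w : V → ℝ) (A B Bh : V → V → Prop) : ℝ :=
  mu w B - mu w (rst A B) + mu w (lop A Bh) - mu w Bh

/-- The outer cost of a pair. -/
noncomputable def EE' (w : V → ℝ) (A B Bh : V → V → Prop) : ℝ :=
  mu w (rop A B) - mu w B + mu w Bh - mu w (lst A Bh)

/-- Valid pairs. -/
structure Valid (A B Bh : V → V → Prop) : Prop where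
  low : ∀ a b, A a b → B a b
  sub : ∀ a b, B a b → Bh a b
  no : ∀ a b, Bh a b → A b a → a = b

theorem mu_union (w : V → ℝ) {R R1 R2 : V → V → Prop} (h : ∀ a x, R a x ↔ (R1 a x ∨ R2 a x))
    (hd : ∀ a x, R1 a x → ¬ R2 a x) : mu w R = mu w R1 + mu w R2 := by
  classical
  unfold mu
  rw [← Finset.sum_add_distrib]
  refine Finset.sum_congr rfl fun a _ => ?_
  rw [← Finset.sum_add_distrib]
  refine Finset.sum_congr rfl fun x _ => ?_
  by_cases h1 : R1 a x
  · rw [if_pos ((h a x).2 (Or.inl h1)), if_pos h1, if_neg (hd a x h1), add_zero]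
  · by_cases h2 : R2 a x
    · rw [if_pos ((h a x).2 (Or.inr h2)), if_neg h1, if_pos h2, zero_add]
    · have h3 : ¬ R a x := fun h3 => ((h a x).1 h3).elim h1 h2
      rw [if_neg h3, if_neg h1, if_neg h2, add_zero]

theorem mu_le_add {w : V → ℝ} (hw : ∀ v, 0 ≤ w v) {R R1 R2 : V → V → Prop}
    (h : ∀ a x, R a x → R1 a x ∨ R2 a x) : mu w R ≤ mu w R1 + mu w R2 := by
  have h1 : mu w (fun a x => R1 a x ∨ (R2 a x ∧ ¬ R1 a x)) =
      mu w R1 + mu w (fun a x => R2 a x ∧ ¬ R1 a x) :=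
    mu_union w (fun a x => Iff.rfl) (fun a x h1 h2 => h2.2 h1)
  have h2 : mu w R ≤ mu w (fun a x => R1 a x ∨ (R2 a x ∧ ¬ R1 a x)) :=
    mu_mono hw fun a x hR => by
      rcases h a x hR with h3 | h3
      · exact Or.inl h3
      · by_cases h4 : R1 a x
        · exact Or.inl h4
        · exact Or.inr ⟨h3, h4⟩
  have h3 : mu w (fun a x => R2 a x ∧ ¬ R1 a x) ≤ mu w R2 := mu_mono hw fun a x h => h.1
  linarith

theorem mu_row_single (w : V → ℝ) (v : V) (T : Finset V) :
    mu w (fun a x => a = v ∧ x ∈ T) = w v * ∑ x ∈ T, w x := by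
  classical
  rw [mu_rows, Finset.sum_eq_single v]
  · congr 1
    refine Finset.sum_congr ?_ fun _ _ => rfl
    ext x
    rw [mem_S (p := fun x => v = v ∧ x ∈ T)]
    simp
  · intro a _ ha
    have h : S (fun x => a = v ∧ x ∈ T) = ∅ := by
      rw [Finset.eq_empty_iff_forall_notMem]
      intro x hx
      exact ha (mem_S (p := fun x => a = v ∧ x ∈ T).1 hx).1
    rw [h, Finset.sum_empty, mul_zero]
  · intro h
    exact absurd (Finset.mem_univ v) h

theorem mu_col_single (w : V → ℝ) (v : V) (T : Finset V) :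
    mu w (fun a x => x = v ∧ a ∈ T) = w v * ∑ x ∈ T, w x := by
  classical
  rw [mu_cols, Finset.sum_eq_single v]
  · congr 1
    refine Finset.sum_congr ?_ fun _ _ => rfl
    ext x
    rw [mem_S (p := fun x => v = v ∧ x ∈ T)]
    simp
  · intro a _ ha
    have h : S (fun x => a = v ∧ x ∈ T) = ∅ := by
      rw [Finset.eq_empty_iff_forall_notMem]
      intro x hx
      exact ha (mem_S (p := fun x => a = v ∧ x ∈ T).1 hx).1
    rw [h, Finset.sum_empty, mul_zero]
  · intro h
    exact absurd (Finset.mem_univ v) h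

/-- The main comparison, for a pair which is minimal between itself. -/
theorem m12_aux (w : V → ℝ) (hw : ∀ v, 0 < w v) (A : V → V → Prop) (hrefl : ∀ a, A a a)
    (hanti : ∀ a b, A a b → A b a → a = b) (B Bh : V → V → Prop)
    (h : Valid A B Bh)
    (hmin : ∀ B2 Bh2 : V → V → Prop, (∀ a b, B a b → B2 a b) → (∀ a b, B2 a b → Bh2 a b) →
      (∀ a b, Bh2 a b → Bh a b) → EE' w A B Bh ≤ EE' w A B2 Bh2) :
    ∃ B1 Bh1 : V → V → Prop, Valid A B1 Bh1 ∧ EE w A B1 Bh1 ≤ EE' w A B Bh := by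
  classical
  have hw0 : ∀ v, 0 ≤ w v := fun v => (hw v).le
  set G : V → V → Prop := fun v x => Bh v x ∧ ¬ B v x with hG
  set Q : V → V → Prop := lst A Bh with hQ
  set P : V → V → Prop := rop A B with hP
  have hGmu : mu w Bh = mu w B + mu w G := by
    refine mu_union w (fun a x => ?_) (fun a x h1 h2 => h2.2 h1)
    constructor
    · intro h1
      by_cases h2 : B a x
      · exact Or.inl h2
      · exact Or.inr ⟨h1, h2⟩
    · rintro (h1 | h1)
      · exact h.sub a x h1
      · exact h1.1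
  have H1 : ∀ v, ∀ X : Finset V, (∀ x ∈ X, G v x) →
      ∑ x ∈ X, w x ≤ ∑ y ∈ S (fun y => ¬ P v y ∧ ∃ x ∈ X, A x y), w y := by
    intro v X hX
    set B2 : V → V → Prop := fun a x => B a x ∨ (a = v ∧ x ∈ X) with hB2
    have h1 := hmin B2 Bh (fun a b hab => Or.inl hab) (by
      rintro a b (hab | ⟨rfl, hab⟩)
      · exact h.sub a b hab
      · exact (hX b hab).1) (fun a b hab => hab)
    have h2 : mu w B2 = mu w B + w v * ∑ x ∈ X, w x := by
      rw [← mu_row_single w v X]
      refine mu_union w (fun a x => Iff.rfl) ?_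
      rintro a x h3 ⟨rfl, h4⟩
      exact (hX x h4).2 h3
    have h3 : mu w (rop A B2) = mu w P +
        w v * ∑ y ∈ S (fun y => ¬ P v y ∧ ∃ x ∈ X, A x y), w y := by
      rw [← mu_row_single w v]
      refine mu_union w (fun a y => ?_) ?_
      · constructor
        · rintro ⟨x, hxy, hx⟩
          by_cases hPay : P a y
          · exact Or.inl hPay
          · right
            rcases hx with hx | ⟨rfl, hx⟩
            · exact absurd ⟨x, hxy, hx⟩ hPay
            · exact ⟨rfl, mem_S.2 ⟨hPay, x, hx, hxy⟩⟩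
        · rintro (⟨x, hxy, hx⟩ | ⟨rfl, hy⟩)
          · exact ⟨x, hxy, Or.inl hx⟩
          · obtain ⟨-, x, hx, hxy⟩ := (mem_S (p := fun y => ¬ P a y ∧ ∃ x ∈ X, A x y)).1 hy
            exact ⟨x, hxy, Or.inr ⟨rfl, hx⟩⟩
      · rintro a y h4 ⟨rfl, hy⟩
        exact ((mem_S (p := fun y => ¬ P a y ∧ ∃ x ∈ X, A x y)).1 hy).1 h4
    have h4 : 0 ≤ w v * (∑ y ∈ S (fun y => ¬ P v y ∧ ∃ x ∈ X, A x y), w y - ∑ x ∈ X, w x) := by
      unfold EE' at h1
      rw [h2, h3, ← hP] at h1
      linarith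
    have h5 := nonneg_of_mul_nonneg_right h4 (hw v)
    linarith
  have H2 : ∀ x, ∀ Z : Finset V, (∀ v ∈ Z, G v x) →
      ∑ v ∈ Z, w v ≤ ∑ a ∈ S (fun a => Q a x ∧ ∃ v ∈ Z, A v a), w a := by
    intro x Z hZ
    set Bh2 : V → V → Prop := fun v z => Bh v z ∧ ¬ (z = x ∧ v ∈ Z) with hBh2
    have h1 := hmin B Bh2 (fun a b hab => hab) (by
      intro a b hab
      refine ⟨h.sub a b hab, ?_⟩
      rintro ⟨rfl, haZ⟩
      exact (hZ a haZ).2 hab) (fun a b hab => hab.1)
    have h2 : mu w Bh = mu w Bh2 + w x * ∑ v ∈ Z, w v := by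
      rw [← mu_col_single w x Z]
      refine mu_union w (fun a z => ?_) ?_
      · constructor
        · intro h3
          by_cases h4 : z = x ∧ a ∈ Z
          · exact Or.inr h4
          · exact Or.inl ⟨h3, h4⟩
        · rintro (h3 | ⟨rfl, h3⟩)
          · exact h3.1
          · exact (hZ a h3).1
      · rintro a z ⟨-, h3⟩ h4
        exact h3 h4
    have h3 : mu w Q = mu w (lst A Bh2) +
        w x * ∑ a ∈ S (fun a => Q a x ∧ ∃ v ∈ Z, A v a), w a := by
      rw [← mu_col_single w x]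
      refine mu_union w (fun a z => ?_) ?_
      · constructor
        · intro h4
          by_cases h5 : z = x ∧ ∃ v ∈ Z, A v a
          · obtain ⟨rfl, h5⟩ := h5
            exact Or.inr ⟨rfl, mem_S.2 ⟨h4, h5⟩⟩
          · left
            intro v hva
            refine ⟨h4 v hva, ?_⟩
            rintro ⟨rfl, hvZ⟩
            exact h5 ⟨rfl, v, hvZ, hva⟩
        · rintro (h4 | ⟨rfl, h4⟩)
          · intro v hva
            exact (h4 v hva).1
          · exact ((mem_S (p := fun a => Q a z ∧ ∃ v ∈ Z, A v a)).1 h4).1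
      · rintro a z h4 ⟨rfl, h5⟩
        obtain ⟨-, v, hvZ, hva⟩ := (mem_S (p := fun a => Q a z ∧ ∃ v ∈ Z, A v a)).1 h5
        exact (h4 v hva).2 ⟨rfl, hvZ⟩
    have h4 : 0 ≤ w x * (∑ a ∈ S (fun a => Q a x ∧ ∃ v ∈ Z, A v a), w a - ∑ v ∈ Z, w v) := by
      unfold EE' at h1
      rw [h2, ← hQ, h3] at h1
      linarith
    have h5 := nonneg_of_mul_nonneg_right h4 (hw x)
    linarith
  have hstar := star w hw A G Q P (by
    intro v a x y hva hxy hQax hPvy
    refine ⟨hQax v hva, fun hB => hPvy ⟨x, hxy, hB⟩⟩) H1 H2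
  set Q' : V → V → Prop := fun a x => Q a x ∧ ∃ v y, A v a ∧ A x y ∧ ¬ P v y with hQ'
  set P' : V → V → Prop := fun v y => ¬ P v y ∧ ∃ a x, A v a ∧ A x y ∧ Q a x with hP'
  set M : V → V → Prop := fun a y => (∃ x, A x y ∧ Q a x) ∧ ∃ v, A v a ∧ ¬ P v y with hM
  set U : V → V → Prop := rop A Q with hU
  set W : V → V → Prop := fun a y => lst A P a y ∧ (A y a → a = y) with hW
  have hUno : ∀ a y, U a y → A y a → a = y := by
    rintro a y ⟨x, hxy, hQax⟩ hya
    have h1 : Bh y x := hQax y hya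
    have h2 : y = x := h.no y x h1 hxy
    rw [← h2] at hQax
    exact h.no a y (hQax a (hrefl a)) hya
  have hQrefl : ∀ a, Q a a := fun a v hva => h.sub v a (h.low v a hva)
  refine ⟨fun a y => U a y ∧ W a y, fun a y => U a y ∨ W a y, ⟨?_, ?_, ?_⟩, ?_⟩
  · intro a b hab
    refine ⟨⟨a, hab, hQrefl a⟩, ?_, fun hba => hanti a b hab hba⟩
    intro v hva
    exact ⟨a, hab, h.low v a hva⟩
  · rintro a b ⟨h1, -⟩
    exact Or.inl h1
  · rintro a b (h1 | h1) hba
    · exact hUno a b h1 hba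
    · exact h1.2 hba
  · have k1 : mu w (fun a y => U a y ∧ W a y) + mu w M ≤ mu w (fun a y => U a y ∨ W a y) := by
      rw [← mu_union w (R := fun a y => (U a y ∧ W a y) ∨ M a y) (fun a x => Iff.rfl)]
      · refine mu_mono hw0 ?_
        rintro a y (h1 | h1)
        · exact Or.inl h1.1
        · exact Or.inl h1.1
      · rintro a y ⟨-, h1⟩ ⟨-, v, hva, hP1⟩
        exact hP1 (h1.1 v hva)
    have k2 : mu w Q ≤ mu w (rst A fun a y => U a y ∧ W a y) + mu w Q' := by
      refine mu_le_add hw0 ?_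
      intro a x hQax
      by_cases h1 : Q' a x
      · exact Or.inr h1
      · left
        intro y hxy
        have hUay : U a y := ⟨x, hxy, hQax⟩
        refine ⟨hUay, ?_, hUno a y hUay⟩
        intro v hva
        by_contra hPvy
        exact h1 ⟨hQax, v, y, hva, hxy, hPvy⟩
    have k3 : mu w (lop A fun a y => U a y ∨ W a y) ≤ mu w P + mu w P' := by
      refine mu_le_add hw0 ?_
      rintro v y ⟨a, hva, h1 | h1⟩
      · by_cases h2 : P v y
        · exact Or.inl h2
        · obtain ⟨x, hxy, hQax⟩ := h1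
          exact Or.inr ⟨h2, a, x, hva, hxy, hQax⟩
      · exact Or.inl (h1.1 v hva)
    unfold EE EE'
    rw [← hQ, ← hP]
    linarith

/-- For every valid pair there is a valid pair whose inner cost is at most the outer cost of the
given one. -/
theorem m12 (w : V → ℝ) (hw : ∀ v, 0 < w v) (A : V → V → Prop) (hrefl : ∀ a, A a a)
    (hanti : ∀ a b, A a b → A b a → a = b) (B Bh : V → V → Prop) (h : Valid A B Bh) :
    ∃ B1 Bh1 : V → V → Prop, Valid A B1 Bh1 ∧ EE w A B1 Bh1 ≤ EE' w A B Bh := by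
  classical
  set I : Set ((V → V → Prop) × (V → V → Prop)) :=
    {p | (∀ a b, B a b → p.1 a b) ∧ (∀ a b, p.1 a b → p.2 a b) ∧ ∀ a b, p.2 a b → Bh a b} with hI
  obtain ⟨p, hp, hmin⟩ := Set.exists_min_image I (fun p => EE' w A p.1 p.2) (Set.toFinite _)
    ⟨(B, Bh), fun a b hab => hab, h.sub, fun a b hab => hab⟩
  obtain ⟨h1, h2, h3⟩ := hp
  have hv : Valid A p.1 p.2 := ⟨fun a b hab => h1 a b (h.low a b hab), h2,
    fun a b hab => h.no a b (h3 a b hab)⟩
  obtain ⟨B1, Bh1, hv1, hle⟩ := m12_aux w hw A hrefl hanti p.1 p.2 hv (by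
    intro B2 Bh2 g1 g2 g3
    exact hmin (B2, Bh2) ⟨fun a b hab => g1 a b (h1 a b hab), g2,
      fun a b hab => h3 a b (g3 a b hab)⟩)
  exact ⟨B1, Bh1, hv1, hle.trans (hmin (B, Bh) ⟨fun a b hab => hab, h.sub, fun a b hab => hab⟩)⟩

end Vale.Agent.P038.H181
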