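import Vale.Agent.P038.H181.M12
import Vale.Agent.P038.H71.Plan
import Vale.Agent.P038.H560.Strong

/-!
# Seymour's second neighbourhood conjecture (P038, H181)
-/

namespace Vale.Agent.P038.H181

open Finset Vale.Agent.P038.H139

universe u

variable {V : Type u} [Fintype V]

/-- The reflexive adjacency. -/
def Ar (D : OGraph V) (a b : V) : Prop := a = b ∨ D.arc a b

omit [Fintype V] in
theorem Ar.refl (D : OGraph V) (a : V) : Ar D a a := Or.inl rfl

omit [Fintype V] in
theorem Ar.anti (D : OGraph V) (a b : V) (h : Ar D a b) (h' : Ar D b a) : a = b := by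
  rcases h with h | h
  · exact h
  · rcases h' with h' | h'
    · exact h'.symm
    · exact absurd h' (D.asymm a b h)

theorem mem_clA {D : OGraph V} {X : Finset V} {z : V} : z ∈ cl D X ↔ ∃ y ∈ X, Ar D y z := by
  rw [mem_cl]
  constructor
  · rintro (h | ⟨y, hy, hyz⟩)
    · exact ⟨z, h, Or.inl rfl⟩
    · exact ⟨y, hy, Or.inr hyz⟩
  · rintro ⟨y, hy, rfl | hyz⟩
    · exact Or.inl hy
    · exact Or.inr ⟨y, hy, hyz⟩

/-- The strict form of (G). -/
theorem gstrict {D : OGraph V} {w : V → ℝ} (h : NFmin 1 D w) (X : Finset V) (hX : cl D X ≠ X) :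
    W w (cl D (cl D X)) - W w (cl D X) < W w (cl D X) - W w X := by
  classical
  have hw0 : ∀ v, 0 ≤ w v := h.toNF.nonneg
  have hsub : X ⊆ cl D X := fun z hz => mem_cl.2 (Or.inl hz)
  have hL : H71.Lx D X = cl D X \ X := by
    ext z
    unfold H71.Lx
    rw [Finset.mem_sdiff, Finset.mem_sdiff, mem_outS, mem_cl]
    tauto
  have hne : (H71.Lx D X).Nonempty := by
    rw [hL]
    by_contra hno
    rw [Finset.not_nonempty_iff_eq_empty, Finset.sdiff_eq_empty_iff_subset] at hno
    exact hX (Finset.Subset.antisymm hno hsub)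
  have h1 := H71.pplus h X (H71.Lx D X) (Finset.Subset.refl _) hne
  have h2 : W w (H71.Lx D X) = W w (cl D X) - W w X := by
    rw [hL]
    exact W_sdiff hsub
  have h3 : W w (cl D (cl D X)) ≤
      W w (cl D (H71.Lx D X) \ (cl D (H71.Lx D X \ H71.Lx D X) ∪ X)) + W w X := by
    rw [← W_union (by
      rw [Finset.disjoint_left]
      intro z hz hzX
      exact (Finset.mem_sdiff.1 hz).2 (Finset.mem_union_right _ hzX))]
    refine W_mono hw0 ?_
    intro z hz
    rw [Finset.mem_union]
    by_cases hzX : z ∈ X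
    · exact Or.inr hzX
    left
    rw [Finset.mem_sdiff, Finset.mem_union]
    constructor
    · obtain ⟨y, hy, hyz⟩ := mem_clA.1 hz
      by_cases hyX : y ∈ X
      · have h4 : z ∈ H71.Lx D X := by
          rw [hL]
          exact Finset.mem_sdiff.2 ⟨mem_clA.2 ⟨y, hyX, hyz⟩, hzX⟩
        exact mem_clA.2 ⟨z, h4, Or.inl rfl⟩
      · have h4 : y ∈ H71.Lx D X := by
          rw [hL]
          exact Finset.mem_sdiff.2 ⟨hy, hyX⟩
        exact mem_clA.2 ⟨y, h4, hyz⟩
    · rintro (h4 | h4)
      · obtain ⟨y, hy, -⟩ := mem_clA.1 h4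
        rw [Finset.sdiff_self] at hy
        exact absurd hy (Finset.notMem_empty y)
      · exact hzX h4
  linarith

theorem gweak {D : OGraph V} {w : V → ℝ} (h : NFmin 1 D w) (X : Finset V) :
    W w (cl D (cl D X)) - W w (cl D X) ≤ W w (cl D X) - W w X := by
  by_cases hX : cl D X = X
  · rw [hX, hX]
  · exact (gstrict h X hX).le

theorem sum_pt {w : V → ℝ} (hw : ∀ v, 0 ≤ w v) (p q r s : V → Prop)
    (h1 : ∀ v, p v → q v → r v ∧ s v) (h2 : ∀ v, p v ∨ q v → r v ∨ s v) :
    W w (S p) + W w (S q) ≤ W w (S r) + W w (S s) := by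
  classical
  have e : ∀ p : V → Prop, W w (S p) = ∑ v, if p v then w v else 0 := by
    intro p
    unfold W S
    rw [Finset.sum_filter]
  rw [e, e, e, e, ← Finset.sum_add_distrib, ← Finset.sum_add_distrib]
  refine Finset.sum_le_sum fun v _ => ?_
  have hv := hw v
  have g1 := h1 v
  have g2 := h2 v
  by_cases hp : p v <;> by_cases hq : q v <;> by_cases hr : r v <;> by_cases hs : s v <;>
    simp only [hp, hq, hr, hs, if_true, if_false] at g1 g2 ⊢ <;>
    first
      | linarith
      | (exfalso; tauto)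

theorem S_cl (D : OGraph V) (X : Finset V) : S (fun z => z ∈ cl D X) = cl D X := by
  ext z
  exact mem_S

/-- (G) makes the outer cost of the closed pair smaller than the inner cost. -/
theorem key {D : OGraph V} {w : V → ℝ} (h : NFmin 1 D w) [Nonempty V] (B Bh : V → V → Prop)
    (hv : Valid (Ar D) B Bh) :
    ∃ B0 Bh0 : V → V → Prop, Valid (Ar D) B0 Bh0 ∧
      EE' w (Ar D) B0 Bh0 < EE w (Ar D) B Bh := by
  classical
  have hw : ∀ v, 0 < w v := h.toNF.pos
  have hw0 : ∀ v, 0 ≤ w v := h.toNF.nonneg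
  set X : V → Finset V := fun a => S (rst (Ar D) B a) with hX
  set Y : V → Finset V := fun b => S (fun y => y = b ∨ ¬ lop (Ar D) Bh y b) with hY
  set B0 : V → V → Prop := fun a y => y ∈ cl D (X a) with hB0
  set Bh0 : V → V → Prop := fun v b => v = b ∨ v ∉ cl D (Y b) with hBh0
  have hmX : ∀ a x, x ∈ X a ↔ ∀ y, Ar D x y → B a y := fun a x => mem_S
  have hmY : ∀ b y, y ∈ Y b ↔ (y = b ∨ ¬ lop (Ar D) Bh y b) := fun b y =>
    mem_S (p := fun y => y = b ∨ ¬ lop (Ar D) Bh y b)
  have hBrefl : ∀ a, B a a := fun a => hv.low a a (Ar.refl D a)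
  have hself : ∀ a, a ∈ X a := fun a => (hmX a a).2 fun y hy => hv.low a y hy
  have hbY : ∀ b, b ∈ Y b := fun b => (hmY b b).2 (Or.inl rfl)
  have hBh : ∀ v b, Bh v b → Bh0 v b := by
    intro v b hvb
    by_cases hne : v = b
    · exact Or.inl hne
    right
    intro hcl
    obtain ⟨y, hy, hyv⟩ := mem_clA.1 hcl
    rcases (hmY b y).1 hy with rfl | hy
    · exact hne (hv.no v y hvb hyv)
    · exact hy ⟨v, hyv, hvb⟩
  have hB0B : ∀ a y, B0 a y → B a y := by
    intro a y hy
    obtain ⟨x, hx, hxy⟩ := mem_clA.1 hy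
    exact (hmX a x).1 hx y hxy
  have hval : Valid (Ar D) B0 Bh0 := by
    refine ⟨fun a b hab => mem_clA.2 ⟨a, hself a, hab⟩, fun a b hab =>
      hBh a b (hv.sub a b (hB0B a b hab)), ?_⟩
    rintro a b (hab | hab) hba
    · exact hab
    · exact absurd (mem_clA.2 ⟨b, hbY b, hba⟩) hab
  refine ⟨B0, Bh0, hval, ?_⟩
  -- rows
  have r0 : mu w B0 ≤ mu w B := mu_mono hw0 hB0B
  have r1 : mu w B0 = ∑ a, w a * W w (cl D (X a)) := by
    rw [mu_rows]
    refine Finset.sum_congr rfl fun a _ => ?_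
    have e : S (B0 a) = cl D (X a) := S_cl D (X a)
    rw [e]
    rfl
  have r2 : mu w (rop (Ar D) B0) = ∑ a, w a * W w (cl D (cl D (X a))) := by
    rw [mu_rows]
    refine Finset.sum_congr rfl fun a _ => ?_
    have e : S (rop (Ar D) B0 a) = cl D (cl D (X a)) := by
      ext y
      rw [mem_S, mem_clA]
      constructor
      · rintro ⟨x, hxy, hx⟩
        exact ⟨x, hx, hxy⟩
      · rintro ⟨x, hx, hxy⟩
        exact ⟨x, hxy, hx⟩
    rw [e]
    rfl
  have r3 : mu w (rst (Ar D) B) = ∑ a, w a * W w (X a) := by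
    rw [mu_rows]
    rfl
  have rows : mu w (rop (Ar D) B0) - mu w B0 < mu w B0 - mu w (rst (Ar D) B) := by
    rw [r1, r2, r3, ← Finset.sum_sub_distrib, ← Finset.sum_sub_distrib]
    obtain ⟨v0⟩ := ‹Nonempty V›
    have hN : (N1 D v0).Nonempty := by
      by_contra hno
      rw [Finset.not_nonempty_iff_eq_empty] at hno
      have h1 := h.toNF.posF v0
      unfold Fw at h1
      rw [hno] at h1
      have h2 := W_nonneg hw0 (N2 D v0)
      have h3 : W w (∅ : Finset V) = 0 := Finset.sum_empty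
      rw [h3] at h1
      linarith
    obtain ⟨a0, ha0⟩ := hN
    have harc : D.arc v0 a0 := mem_N1.1 ha0
    have hstr : cl D (X a0) ≠ X a0 := by
      have h1 := H560.strong h.toNF.ind D w hw0 h.toNF.posF (X a0) ⟨a0, hself a0⟩ (by
        intro huniv
        have h2 : v0 ∈ X a0 := by
          rw [huniv]
          exact Finset.mem_univ _
        have h3 : B a0 v0 := (hmX a0 v0).1 h2 v0 (Ar.refl D v0)
        have h4 : a0 = v0 := hv.no a0 v0 (hv.sub a0 v0 h3) (Or.inr harc)
        rw [h4] at harc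
        exact D.loopless v0 harc)
      intro heq
      obtain ⟨z, hz⟩ := h1
      obtain ⟨h2, h3⟩ := H560.mem_L1.1 hz
      rw [heq] at h2
      exact h3 h2
    refine Finset.sum_lt_sum (fun a _ => ?_) ⟨a0, Finset.mem_univ _, ?_⟩
    · have h1 := mul_le_mul_of_nonneg_left (gweak h (X a)) (hw0 a)
      linarith
    · have h1 := mul_lt_mul_of_pos_left (gstrict h (X a0) hstr) (hw a0)
      linarith
  -- columns
  have cols : mu w Bh0 - mu w (lst (Ar D) Bh0) ≤ mu w (lop (Ar D) Bh) - mu w Bh := by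
    rw [mu_cols w Bh0, mu_cols w (lst (Ar D) Bh0), mu_cols w (lop (Ar D) Bh), mu_cols w Bh,
      ← Finset.sum_sub_distrib, ← Finset.sum_sub_distrib]
    refine Finset.sum_le_sum fun b _ => ?_
    have c1 : W w (S fun v => Bh0 v b) + W w (cl D (Y b)) ≤
        W w (cl D (cl D (Y b))) + W w (S fun a => lst (Ar D) Bh0 a b) := by
      have e := sum_pt hw0 (fun v => Bh0 v b) (fun v => v ∈ cl D (Y b))
        (fun v => v ∈ cl D (cl D (Y b))) (fun a => lst (Ar D) Bh0 a b) ?_ ?_
      · rw [S_cl D (Y b), S_cl D (cl D (Y b))] at e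
        exact e
      · rintro v (rfl | h1) h2
        · refine ⟨mem_clA.2 ⟨v, h2, Ar.refl D v⟩, ?_⟩
          intro v' hv'
          by_cases hne : v' = v
          · exact Or.inl hne
          right
          intro hcl
          obtain ⟨y, hy, hyv⟩ := mem_clA.1 hcl
          rcases (hmY v y).1 hy with rfl | hy
          · exact hne (Ar.anti D v' y hv' hyv)
          · exact hy ⟨v', hyv, hv.sub _ _ (hv.low v' v hv')⟩
        · exact absurd h2 h1
      · intro v _
        by_cases hl : lst (Ar D) Bh0 v b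
        · exact Or.inr hl
        left
        unfold lst at hl
        push Not at hl
        obtain ⟨v', hv', hno⟩ := hl
        have h3 : v' ∈ cl D (Y b) := by
          by_contra h4
          exact hno (Or.inr h4)
        exact mem_clA.2 ⟨v', h3, hv'⟩
    have c2 : W w (cl D (Y b)) + W w (S fun v => Bh v b) ≤
        W w (Y b) + W w (S fun v => lop (Ar D) Bh v b) := by
      have e := sum_pt hw0 (fun v => v ∈ cl D (Y b)) (fun v => Bh v b)
        (fun y => y = b ∨ ¬ lop (Ar D) Bh y b) (fun v => lop (Ar D) Bh v b) ?_ ?_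
      · rw [S_cl D (Y b)] at e
        exact e
      · intro v h1 h2
        refine ⟨?_, ⟨v, Ar.refl D v, h2⟩⟩
        rcases hBh v b h2 with h3 | h3
        · exact Or.inl h3
        · exact absurd h1 h3
      · intro v _
        by_cases h3 : lop (Ar D) Bh v b
        · exact Or.inr h3
        · exact Or.inl (Or.inr h3)
    have c3 := gweak h (Y b)
    have c4 : W w (S fun v => Bh0 v b) - W w (S fun a => lst (Ar D) Bh0 a b) ≤
        W w (S fun v => lop (Ar D) Bh v b) - W w (S fun v => Bh v b) := by linarith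
    have c5 := mul_le_mul_of_nonneg_left c4 (hw0 b)
    unfold W at c5
    linarith
  unfold EE EE'
  linarith

/-- There is no normal form: the conjecture. -/
theorem no_nf (V : Type u) [Fintype V] [Nonempty V] (D : OGraph V) (w : V → ℝ) : ¬ NF 1 D w := by
  classical
  intro hnf
  obtain ⟨D, w, h⟩ := exists_nfmin hnf
  have hanti := Ar.anti D
  obtain ⟨p, hp, hmin⟩ := Set.exists_min_image
    {p : (V → V → Prop) × (V → V → Prop) | Valid (Ar D) p.1 p.2}
    (fun p => EE w (Ar D) p.1 p.2) (Set.toFinite _)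
    ⟨(Ar D, Ar D), ⟨fun a b hab => hab, fun a b hab => hab, hanti⟩⟩
  obtain ⟨B0, Bh0, hv0, h0⟩ := key h p.1 p.2 hp
  obtain ⟨B1, Bh1, hv1, h1⟩ := m12 w h.toNF.pos (Ar D) (Ar.refl D) hanti B0 Bh0 hv0
  have h2 : EE w (Ar D) p.1 p.2 ≤ EE w (Ar D) B1 Bh1 := hmin (B1, Bh1) hv1
  linarith

/-- Seymour's second neighbourhood conjecture, weighted form. -/
theorem snc {V : Type u} [Fintype V] [Nonempty V] (D : OGraph V) (w : V → ℝ)
    (hw : ∀ v, 0 ≤ w v) : ∃ v, ∑ u ∈ N1 D v, w u ≤ ∑ u ∈ N2 D v, w u := by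
  obtain ⟨v, hv⟩ := snc_of_noNF (lam := 1) zero_le_one
    (fun V _ _ D w => no_nf V D w) D w hw
  exact ⟨v, by simpa using hv⟩

end Vale.Agent.P038.H181
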