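import Vale.Agent.P038.H181.Flow

/-!
# The inequality (STAR) (P038, H181)
-/

namespace Vale.Agent.P038.H181

open Finset

variable {V : Type*} [Fintype V]

open Classical in
/-- The measure `w × w` of a relation. -/
noncomputable def mu (w : V → ℝ) (R : V → V → Prop) : ℝ :=
  ∑ a, ∑ x, if R a x then w a * w x else 0

open Classical in
/-- The members of a set given by a predicate. -/
noncomputable def S (p : V → Prop) : Finset V := Finset.univ.filter p

theorem mem_S {p : V → Prop} {x : V} : x ∈ S p ↔ p x := by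
  classical
  simp [S]

theorem mu_rows (w : V → ℝ) (R : V → V → Prop) :
    mu w R = ∑ a, w a * ∑ x ∈ S (R a), w x := by
  classical
  unfold mu S
  refine Finset.sum_congr rfl fun a _ => ?_
  rw [Finset.sum_filter, Finset.mul_sum]
  refine Finset.sum_congr rfl fun x _ => ?_
  split_ifs <;> simp

theorem mu_cols (w : V → ℝ) (R : V → V → Prop) :
    mu w R = ∑ x, w x * ∑ a ∈ S (fun a => R a x), w a := by
  classical
  unfold mu S
  rw [Finset.sum_comm]
  refine Finset.sum_congr rfl fun a _ => ?_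
  rw [Finset.sum_filter, Finset.mul_sum]
  refine Finset.sum_congr rfl fun x _ => ?_
  split_ifs
  · ring
  · simp

theorem mu_mono {w : V → ℝ} (hw : ∀ v, 0 ≤ w v) {R T : V → V → Prop} (h : ∀ a x, R a x → T a x) :
    mu w R ≤ mu w T := by
  classical
  unfold mu
  refine Finset.sum_le_sum fun a _ => Finset.sum_le_sum fun x _ => ?_
  by_cases h1 : R a x
  · rw [if_pos h1, if_pos (h a x h1)]
  · rw [if_neg h1]
    split_ifs
    · exact mul_nonneg (hw a) (hw x)
    · exact le_refl _

/-- Hall's condition for a union of graphs. -/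
theorem hall_union (w : V → ℝ) (G C E : V → V → Prop) (Qs : V → Prop) (I : Finset V)
    (hK : ∀ i ∈ I, ∀ z y, Qs z → E z y → C i y → G i z)
    (H : ∀ i ∈ I, ∀ X : Finset V, (∀ x ∈ X, G i x) →
      ∑ x ∈ X, w x ≤ ∑ y ∈ S (fun y => C i y ∧ ∃ x ∈ X, E x y), w y)
    (hw : ∀ v, 0 ≤ w v) (Z : Finset V) (hZ : ∀ z ∈ Z, Qs z ∧ ∃ i ∈ I, G i z) :
    ∑ z ∈ Z, w z ≤ ∑ y ∈ S (fun y => ∃ z ∈ Z, E z y ∧ ∃ i ∈ I, C i y), w y := by
  classical
  induction I using Finset.induction_on generalizing Z with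
  | empty =>
    have hZe : Z = ∅ := by
      rw [Finset.eq_empty_iff_forall_notMem]
      intro z hz
      obtain ⟨-, i, hi, -⟩ := hZ z hz
      exact absurd hi (Finset.notMem_empty i)
    rw [hZe, Finset.sum_empty]
    exact Finset.sum_nonneg fun v _ => hw v
  | insert i0 I hi0 ih =>
    set Z0 := Z.filter fun z => G i0 z with hZ0
    set Z1 := Z.filter fun z => ¬ G i0 z with hZ1
    have h1 := ih (fun i hi => hK i (Finset.mem_insert_of_mem hi))
      (fun i hi => H i (Finset.mem_insert_of_mem hi)) Z1 (by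
        intro z hz
        obtain ⟨hzZ, hz0⟩ := Finset.mem_filter.1 hz
        obtain ⟨hQ, i, hi, hGi⟩ := hZ z hzZ
        refine ⟨hQ, i, ?_, hGi⟩
        rcases Finset.mem_insert.1 hi with h | h
        · rw [h] at hGi
          exact absurd hGi hz0
        · exact h)
    have h0 := H i0 (Finset.mem_insert_self _ _) Z0 (fun x hx => (Finset.mem_filter.1 hx).2)
    set Y0 := S (fun y => C i0 y ∧ ∃ x ∈ Z0, E x y) with hY0
    set Y1 := S (fun y => ∃ z ∈ Z1, E z y ∧ ∃ i ∈ I, C i y) with hY1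
    have hdisj : Disjoint Y0 Y1 := by
      rw [Finset.disjoint_left]
      intro y hy0 hy1
      obtain ⟨hC, -⟩ := mem_S.1 hy0
      obtain ⟨z, hz, hE, -⟩ := mem_S.1 hy1
      obtain ⟨hzZ, hz0⟩ := Finset.mem_filter.1 hz
      exact hz0 (hK i0 (Finset.mem_insert_self _ _) z y (hZ z hzZ).1 hE hC)
    have h2 : ∑ z ∈ Z, w z = ∑ z ∈ Z0, w z + ∑ z ∈ Z1, w z :=
      (Finset.sum_filter_add_sum_filter_not Z _ _).symm
    have h3 : ∑ y ∈ Y0 ∪ Y1, w y ≤
        ∑ y ∈ S (fun y => ∃ z ∈ Z, E z y ∧ ∃ i ∈ insert i0 I, C i y), w y := by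
      refine Finset.sum_le_sum_of_subset_of_nonneg ?_ fun v _ _ => hw v
      intro y hy
      rcases Finset.mem_union.1 hy with h | h
      · obtain ⟨hC, x, hx, hE⟩ := mem_S.1 h
        exact mem_S.2 ⟨x, (Finset.mem_filter.1 hx).1, hE, i0, Finset.mem_insert_self _ _, hC⟩
      · obtain ⟨x, hx, hE, i, hi, hC⟩ := mem_S.1 h
        exact mem_S.2 ⟨x, (Finset.mem_filter.1 hx).1, hE, i, Finset.mem_insert_of_mem hi, hC⟩
    rw [Finset.sum_union hdisj] at h3
    linarith

/-- (STAR). -/
theorem star (w : V → ℝ) (hw : ∀ v, 0 < w v) (A G Q P : V → V → Prop)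
    (hK : ∀ v a x y, A v a → A x y → Q a x → ¬ P v y → G v x)
    (H1 : ∀ v, ∀ X : Finset V, (∀ x ∈ X, G v x) →
      ∑ x ∈ X, w x ≤ ∑ y ∈ S (fun y => ¬ P v y ∧ ∃ x ∈ X, A x y), w y)
    (H2 : ∀ x, ∀ Z : Finset V, (∀ v ∈ Z, G v x) →
      ∑ v ∈ Z, w v ≤ ∑ a ∈ S (fun a => Q a x ∧ ∃ v ∈ Z, A v a), w a) :
    mu w (fun a x => Q a x ∧ ∃ v y, A v a ∧ A x y ∧ ¬ P v y) +
      mu w (fun v y => ¬ P v y ∧ ∃ a x, A v a ∧ A x y ∧ Q a x) ≤
    mu w G + mu w (fun a y => (∃ x, A x y ∧ Q a x) ∧ ∃ v, A v a ∧ ¬ P v y) := by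
  classical
  set Q' : V → V → Prop := fun a x => Q a x ∧ ∃ v y, A v a ∧ A x y ∧ ¬ P v y with hQ'
  set P' : V → V → Prop := fun v y => ¬ P v y ∧ ∃ a x, A v a ∧ A x y ∧ Q a x with hP'
  set M : V → V → Prop := fun a y => (∃ x, A x y ∧ Q a x) ∧ ∃ v, A v a ∧ ¬ P v y with hM
  have hw0 : ∀ v, 0 ≤ w v := fun v => (hw v).le
  -- single elements
  have hG1 : ∀ v x, G v x → ∃ y, A x y ∧ ¬ P v y := by
    intro v x hG
    by_contra hno
    push Not at hno
    have h1 := H1 v {x} (fun z hz => by rw [Finset.mem_singleton.1 hz]; exact hG)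
    have h2 : S (fun y => ¬ P v y ∧ ∃ z ∈ ({x} : Finset V), A z y) = ∅ := by
      rw [Finset.eq_empty_iff_forall_notMem]
      intro y hy
      obtain ⟨h3, z, hz, h4⟩ := mem_S.1 hy
      rw [Finset.mem_singleton.1 hz] at h4
      exact h3 (hno y h4)
    rw [h2, Finset.sum_empty, Finset.sum_singleton] at h1
    exact absurd (hw x) (not_lt.2 h1)
  have hG2 : ∀ v x, G v x → ∃ a, A v a ∧ Q a x := by
    intro v x hG
    by_contra hno
    push Not at hno
    have h1 := H2 x {v} (fun z hz => by rw [Finset.mem_singleton.1 hz]; exact hG)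
    have h2 : S (fun a => Q a x ∧ ∃ z ∈ ({v} : Finset V), A z a) = ∅ := by
      rw [Finset.eq_empty_iff_forall_notMem]
      intro y hy
      obtain ⟨h3, z, hz, h4⟩ := mem_S.1 hy
      rw [Finset.mem_singleton.1 hz] at h4
      exact hno y h4 h3
    rw [h2, Finset.sum_empty, Finset.sum_singleton] at h1
    exact absurd (hw v) (not_lt.2 h1)
  -- flows in the rows `v`
  have f1 : ∀ v, ∃ h : V → V → ℝ, Bal w (G v) (fun x y => A x y ∧ ¬ P v y) h := fun v =>
    exists_balanced w hw _ _ (hG1 v)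
  choose f hf using f1
  have f2 : ∀ a, ∃ h : V → V → ℝ, Bal w (Q' a) (fun x y => A x y ∧ M a y) h := fun a =>
    exists_balanced w hw _ _ (by
      rintro x ⟨hQ, v, y, h1, h2, h3⟩
      exact ⟨y, h2, ⟨x, h2, hQ⟩, v, h1, h3⟩)
  choose g hg using f2
  have f3 : ∀ y, ∃ h : V → V → ℝ, Bal w (fun v => P' v y) (fun v a => A v a ∧ M a y) h :=
    fun y => exists_balanced w hw _ _ (by
      rintro v ⟨hP, a, x, h1, h2, h3⟩
      exact ⟨a, h1, ⟨x, h2, h3⟩, v, h1, hP⟩)
  choose k hk using f3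
  -- Hall for the rows `a`
  have g_le : ∀ a y, ∑ z, g a z y ≤ w y := by
    intro a y
    refine (hg a).load_le hw ?_ y
    intro X T hX hT
    have h1 := hall_union w G (fun v y => ¬ P v y) A (Q a) (S fun v => A v a)
      (fun v hv z y hz hzy hPy => hK v a z y ((mem_S (p := fun v => A v a)).1 hv) hzy hz hPy) (fun v _ => H1 v) hw0 X (by
        intro z hz
        obtain ⟨hQ, v, y, h1, h2, h3⟩ := hX z hz
        exact ⟨hQ, v, mem_S.2 h1, hK v a z y h1 h2 hQ h3⟩)
    refine h1.trans (Finset.sum_le_sum_of_subset_of_nonneg ?_ fun v _ _ => hw0 v)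
    intro y hy
    obtain ⟨z, hz, hzy, v, hv, hPy⟩ := mem_S.1 hy
    obtain ⟨hQ, -⟩ := hX z hz
    exact hT z hz y ⟨hzy, ⟨z, hzy, hQ⟩, v, (mem_S (p := fun v => A v a)).1 hv, hPy⟩
  -- Hall for the columns `y`
  have k_le : ∀ y a, ∑ v, k y v a ≤ w a := by
    intro y a
    refine (hk y).load_le hw ?_ a
    intro X T hX hT
    have h1 := hall_union w (fun x v => G v x) (fun x a => Q a x) A (fun v => ¬ P v y)
      (S fun x => A x y)
      (fun x hx v a hv hva hQ => hK v a x y hva ((mem_S (p := fun x => A x y)).1 hx) hQ hv) (fun x _ => H2 x) hw0 X (by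
        intro v hv
        obtain ⟨hP, a, x, h1, h2, h3⟩ := hX v hv
        exact ⟨hP, x, mem_S.2 h2, hK v a x y h1 h2 h3 hP⟩)
    refine h1.trans (Finset.sum_le_sum_of_subset_of_nonneg ?_ fun v _ _ => hw0 v)
    intro a ha
    obtain ⟨v, hv, hva, x, hx, hQ⟩ := mem_S.1 ha
    obtain ⟨hP, -⟩ := hX v hv
    exact hT v hv a ⟨hva, ⟨x, (mem_S (p := fun x => A x y)).1 hx, hQ⟩, v, hva, hP⟩
  -- monotonicity
  have hmono : ∀ v a y, A v a → ¬ P v y → ∑ z, g a z y ≤ ∑ z, f v z y := by
    intro v a y hva hPy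
    refine Bal.mono hw (hf v) (hg a) (fun y => ¬ P v y) ?_ ?_ ?_ y hPy
    · rintro x y ⟨hQ, -⟩ ⟨hxy, -⟩ hP
      exact ⟨hK v a x y hva hxy hQ hP, hxy, hP⟩
    · rintro x y ⟨hQ, -⟩ ⟨hxy, hP⟩
      exact ⟨hxy, ⟨x, hxy, hQ⟩, v, hva, hP⟩
    · rintro x y ⟨-, hP⟩
      exact hP
  -- the column inequality
  have hcol : ∀ y, ∑ v ∈ S (fun v => P' v y), w v * (w y - ∑ z, f v z y) ≤
      ∑ a ∈ S (fun a => M a y), w a * (w y - ∑ z, g a z y) := by
    intro y
    have s1 : ∑ v ∈ S (fun v => P' v y), w v * (w y - ∑ z, f v z y) =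
        ∑ v, ∑ a, k y v a * (w y - ∑ z, f v z y) := by
      rw [← Finset.sum_subset (Finset.subset_univ (S fun v => P' v y))]
      · refine Finset.sum_congr rfl fun v hv => ?_
        rw [← Finset.sum_mul, (hk y).sum v ((mem_S (p := fun v => P' v y)).1 hv)]
      · intro v _ hv
        refine Finset.sum_eq_zero fun a _ => ?_
        have h0 : k y v a = 0 := by
          by_contra hne
          exact hv (mem_S.2 ((hk y).supp v a hne).1)
        rw [h0, zero_mul]
    have s2 : ∑ v, ∑ a, k y v a * (w y - ∑ z, f v z y) ≤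
        ∑ v, ∑ a, k y v a * (w y - ∑ z, g a z y) := by
      refine Finset.sum_le_sum fun v _ => Finset.sum_le_sum fun a _ => ?_
      by_cases h0 : k y v a = 0
      · rw [h0, zero_mul, zero_mul]
      · obtain ⟨⟨hP, -⟩, hva, -⟩ := (hk y).supp v a h0
        have h1 := hmono v a y hva hP
        exact mul_le_mul_of_nonneg_left (by linarith) ((hk y).nonneg v a)
    have s3 : ∑ v, ∑ a, k y v a * (w y - ∑ z, g a z y) ≤
        ∑ a ∈ S (fun a => M a y), w a * (w y - ∑ z, g a z y) := by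
      rw [Finset.sum_comm, ← Finset.sum_subset (Finset.subset_univ (S fun a => M a y))]
      · refine Finset.sum_le_sum fun a _ => ?_
        rw [← Finset.sum_mul]
        exact mul_le_mul_of_nonneg_right (k_le y a) (by have := g_le a y; linarith)
      · intro a _ ha
        refine Finset.sum_eq_zero fun v _ => ?_
        have h0 : k y v a = 0 := by
          by_contra hne
          exact ha (mem_S.2 ((hk y).supp v a hne).2.2)
        rw [h0, zero_mul]
    rw [s1]
    exact s2.trans s3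
  have htot := Finset.sum_le_sum fun (y : V) (_ : y ∈ (Finset.univ : Finset V)) => hcol y
  -- total masses
  have t1 : ∑ y, ∑ v ∈ S (fun v => P' v y), w v * (w y - ∑ z, f v z y) = mu w P' - mu w G := by
    have u1 : ∑ y, ∑ v ∈ S (fun v => P' v y), w v * w y = mu w P' := by
      rw [mu_cols]
      refine Finset.sum_congr rfl fun y _ => ?_
      rw [Finset.mul_sum]
      exact Finset.sum_congr rfl fun v _ => mul_comm _ _
    have u2 : ∑ y, ∑ v ∈ S (fun v => P' v y), w v * ∑ z, f v z y = mu w G := by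
      have u3 : ∀ y, ∑ v ∈ S (fun v => P' v y), w v * ∑ z, f v z y =
          ∑ v, w v * ∑ z, f v z y := by
        intro y
        refine Finset.sum_subset (Finset.subset_univ _) fun v _ hv => ?_
        have h0 : ∑ z, f v z y = 0 := by
          refine Finset.sum_eq_zero fun z _ => ?_
          by_contra hne
          obtain ⟨hGz, hzy, hP⟩ := (hf v).supp z y hne
          obtain ⟨a, hva, hQ⟩ := hG2 v z hGz
          exact hv (mem_S.2 ⟨hP, a, z, hva, hzy, hQ⟩)
        rw [h0, mul_zero]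
      rw [Finset.sum_congr rfl fun y _ => u3 y, Finset.sum_comm, mu_rows]
      refine Finset.sum_congr rfl fun v _ => ?_
      rw [← Finset.mul_sum]
      congr 1
      rw [Finset.sum_comm, ← Finset.sum_subset (Finset.subset_univ (S (G v)))]
      · exact Finset.sum_congr rfl fun x hx => (hf v).sum x (mem_S.1 hx)
      · intro x _ hx
        refine Finset.sum_eq_zero fun y _ => ?_
        by_contra hne
        exact hx (mem_S.2 ((hf v).supp x y hne).1)
    rw [← u1, ← u2, ← Finset.sum_sub_distrib]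
    refine Finset.sum_congr rfl fun y _ => ?_
    rw [← Finset.sum_sub_distrib]
    exact Finset.sum_congr rfl fun v _ => by ring
  have t2 : ∑ y, ∑ a ∈ S (fun a => M a y), w a * (w y - ∑ z, g a z y) = mu w M - mu w Q' := by
    have u1 : ∑ y, ∑ a ∈ S (fun a => M a y), w a * w y = mu w M := by
      rw [mu_cols]
      refine Finset.sum_congr rfl fun y _ => ?_
      rw [Finset.mul_sum]
      exact Finset.sum_congr rfl fun v _ => mul_comm _ _
    have u2 : ∑ y, ∑ a ∈ S (fun a => M a y), w a * ∑ z, g a z y = mu w Q' := by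
      have u3 : ∀ y, ∑ a ∈ S (fun a => M a y), w a * ∑ z, g a z y =
          ∑ a, w a * ∑ z, g a z y := by
        intro y
        refine Finset.sum_subset (Finset.subset_univ _) fun a _ ha => ?_
        have h0 : ∑ z, g a z y = 0 := by
          refine Finset.sum_eq_zero fun z _ => ?_
          by_contra hne
          exact ha (mem_S.2 ((hg a).supp z y hne).2.2)
        rw [h0, mul_zero]
      rw [Finset.sum_congr rfl fun y _ => u3 y, Finset.sum_comm, mu_rows]
      refine Finset.sum_congr rfl fun v _ => ?_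
      rw [← Finset.mul_sum]
      congr 1
      rw [Finset.sum_comm, ← Finset.sum_subset (Finset.subset_univ (S (Q' v)))]
      · exact Finset.sum_congr rfl fun x hx => (hg v).sum x (mem_S.1 hx)
      · intro x _ hx
        refine Finset.sum_eq_zero fun y _ => ?_
        by_contra hne
        exact hx (mem_S.2 ((hg v).supp x y hne).1)
    rw [← u1, ← u2, ← Finset.sum_sub_distrib]
    refine Finset.sum_congr rfl fun y _ => ?_
    rw [← Finset.sum_sub_distrib]
    exact Finset.sum_congr rfl fun v _ => by ring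
  rw [t1, t2] at htot
  linarith

end Vale.Agent.P038.H181
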